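import Mathlib

/-!
Pressure of an Ising spin system with couplings `Uᵀ diag(l) U`: monotonicity, shifts, convexity
in the spectrum and invariance of its law under permutations of the spectrum.
-/

open MeasureTheory Matrix Finset
open scoped BigOperators

namespace Vale.Agent.P166

/-- The orthogonal group of order `N`. -/
abbrev ON (N : ℕ) : Type := Matrix.unitaryGroup (Fin N) ℝ

/-- The Borel sigma-algebra on the orthogonal group. -/
noncomputable instance measurableSpaceON (N : ℕ) : MeasurableSpace (ON N) := borel (ON N)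

instance borelSpaceON (N : ℕ) : BorelSpace (ON N) := ⟨rfl⟩

/-- The spin vector of a configuration. -/
def spin {N : ℕ} (s : Fin N → Bool) : Fin N → ℝ := fun i => if s i then 1 else -1

/-- The energy `σᵀ (Uᵀ diag(l) U) σ`. -/
def quad {N : ℕ} (l : Fin N → ℝ) (U : ON N) (s : Fin N → Bool) : ℝ :=
  dotProduct (spin s) ((U.1ᵀ * diagonal l * U.1) *ᵥ spin s)

/-- The pressure at inverse temperature `β`. -/
noncomputable def pressure {N : ℕ} (β : ℝ) (l : Fin N → ℝ) (U : ON N) : ℝ :=
  1 / (N : ℝ) * Real.log (1 / (2 : ℝ) ^ N * ∑ s : Fin N → Bool, Real.exp (β / 2 * quad l U s))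

variable {N : ℕ}

lemma quad_eq (l : Fin N → ℝ) (U : ON N) (s : Fin N → Bool) :
    quad l U s = ∑ i, l i * ((U.1 *ᵥ spin s) i) ^ 2 := by
  rw [quad, ← mulVec_mulVec, ← mulVec_mulVec, dotProduct_mulVec, vecMul_transpose]
  simp only [dotProduct, mulVec_diagonal]
  exact sum_congr rfl fun i _ => by ring

lemma transpose_mul_self (U : ON N) : U.1ᵀ * U.1 = 1 := by
  have h := Matrix.UnitaryGroup.star_mul_self U
  rwa [star_eq_conjTranspose, conjTranspose_eq_transpose_of_trivial] at h

lemma sum_sq_mulVec (U : ON N) (s : Fin N → Bool) :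
    ∑ i, ((U.1 *ᵥ spin s) i) ^ 2 = N := by
  have h := quad_eq (fun _ => 1) U s
  rw [quad, diagonal_one, Matrix.mul_one, transpose_mul_self, one_mulVec] at h
  simp only [one_mul] at h
  rw [← h]
  simp only [dotProduct, spin]
  rw [sum_congr rfl (fun i _ => (by split_ifs <;> norm_num :
    (if s i then (1:ℝ) else -1) * (if s i then 1 else -1) = 1))]
  simp

lemma quad_mono {x y : Fin N → ℝ} (h : x ≤ y) (U : ON N) (s : Fin N → Bool) :
    quad x U s ≤ quad y U s := by
  rw [quad_eq, quad_eq]
  exact sum_le_sum fun i _ => mul_le_mul_of_nonneg_right (h i) (sq_nonneg _)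

lemma quad_shift (x : Fin N → ℝ) (c : ℝ) (U : ON N) (s : Fin N → Bool) :
    quad (fun i => x i + c) U s = quad x U s + c * N := by
  rw [quad_eq, quad_eq, ← sum_sq_mulVec U s, mul_sum, ← sum_add_distrib]
  exact sum_congr rfl fun i _ => by ring

lemma quad_avg {m : ℕ} (z : Fin m → Fin N → ℝ) (U : ON N) (s : Fin N → Bool) :
    quad (fun i => (∑ k, z k i) / m) U s = (∑ k, quad (z k) U s) / m := by
  simp only [quad_eq, div_eq_mul_inv, sum_mul]
  rw [sum_comm]
  exact sum_congr rfl fun k _ => sum_congr rfl fun i _ => by ring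

/-- Partition function. -/
noncomputable def part (β : ℝ) (l : Fin N → ℝ) (U : ON N) : ℝ :=
  ∑ s : Fin N → Bool, Real.exp (β / 2 * quad l U s)

lemma part_pos (β : ℝ) (l : Fin N → ℝ) (U : ON N) : 0 < part β l U :=
  sum_pos (fun _ _ => Real.exp_pos _) univ_nonempty

lemma pressure_eq (β : ℝ) (l : Fin N → ℝ) (U : ON N) :
    pressure β l U = (Real.log (part β l U) - N * Real.log 2) / N := by
  rw [pressure, ← part, Real.log_mul (by positivity) (part_pos β l U).ne', one_div, one_div,
    Real.log_inv, Real.log_pow]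
  ring

lemma log_part_mono {β : ℝ} (hβ : 0 ≤ β) {x y : Fin N → ℝ} (h : x ≤ y) (U : ON N) :
    Real.log (part β x U) ≤ Real.log (part β y U) :=
  Real.log_le_log (part_pos _ _ _) (sum_le_sum fun s _ =>
    Real.exp_le_exp.2 (mul_le_mul_of_nonneg_left (quad_mono h U s) (by linarith)))

lemma log_part_shift (β : ℝ) (x : Fin N → ℝ) (c : ℝ) (U : ON N) :
    Real.log (part β (fun i => x i + c) U) = Real.log (part β x U) + β / 2 * c * N := by
  have : part β (fun i => x i + c) U = part β x U * Real.exp (β / 2 * c * N) := by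
    rw [part, part, sum_mul]
    refine sum_congr rfl fun s _ => ?_
    rw [quad_shift, ← Real.exp_add]
    ring_nf
  rw [this, Real.log_mul (part_pos _ _ _).ne' (Real.exp_pos _).ne', Real.log_exp]

/-- Jensen's inequality for log-sum-exp. -/
lemma log_part_avg {m : ℕ} (hm : 0 < m) (β : ℝ) (z : Fin m → Fin N → ℝ) (U : ON N) :
    Real.log (part β (fun i => (∑ k, z k i) / m) U) ≤
      (∑ k, Real.log (part β (z k) U)) / m := by
  set A := (∑ k, Real.log (part β (z k) U)) / m with hA
  have hm' : (0 : ℝ) < m := Nat.cast_pos.2 hm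
  rw [Real.log_le_iff_le_exp (part_pos _ _ _)]
  have hb : ∀ s, Real.exp (β / 2 * quad (fun i => (∑ k, z k i) / m) U s - A) ≤
      ∑ k : Fin m, (1 / (m : ℝ)) * (Real.exp (β / 2 * quad (z k) U s) / part β (z k) U) := by
    intro s
    have hj := convexOn_exp.map_sum_le (t := (Finset.univ : Finset (Fin m)))
      (w := fun _ => 1 / (m : ℝ))
      (p := fun k => β / 2 * quad (z k) U s - Real.log (part β (z k) U))
      (fun _ _ => by positivity) (by simp [hm'.ne']) (fun _ _ => Set.mem_univ _)
    simp only [smul_eq_mul] at hj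
    refine le_trans (le_of_eq ?_) (hj.trans (le_of_eq ?_))
    · congr 1
      rw [← mul_sum, sum_sub_distrib, ← mul_sum, quad_avg, hA]
      ring
    · refine sum_congr rfl fun k _ => ?_
      rw [Real.exp_sub, Real.exp_log (part_pos _ _ _)]
  have h := sum_le_sum (s := (univ : Finset (Fin N → Bool))) fun s _ => hb s
  rw [sum_comm] at h
  have h1 : ∀ k, ∑ s, (1 / (m : ℝ)) * (Real.exp (β / 2 * quad (z k) U s) / part β (z k) U) =
      1 / (m : ℝ) := fun k => by
    rw [← mul_sum, ← sum_div, ← part, div_self (part_pos _ _ _).ne', mul_one]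
  simp only [h1, sum_const, card_univ, Fintype.card_fin, nsmul_eq_mul, mul_one_div,
    div_self hm'.ne', Real.exp_sub, ← sum_div] at h
  rwa [div_le_one (Real.exp_pos _)] at h

lemma pressure_mono {β : ℝ} (hβ : 0 ≤ β) {x y : Fin N → ℝ} (h : x ≤ y) (U : ON N) :
    pressure β x U ≤ pressure β y U := by
  rw [pressure_eq, pressure_eq]
  exact div_le_div_of_nonneg_right (sub_le_sub_right (log_part_mono hβ h U) _) (Nat.cast_nonneg N)

lemma pressure_shift (hN : 0 < N) (β : ℝ) (x : Fin N → ℝ) (c : ℝ) (U : ON N) :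
    pressure β (fun i => x i + c) U = pressure β x U + β / 2 * c := by
  rw [pressure_eq, pressure_eq, log_part_shift]
  have : (0 : ℝ) < N := Nat.cast_pos.2 hN
  field_simp
  ring

lemma pressure_avg {m : ℕ} (hm : 0 < m) (β : ℝ) (z : Fin m → Fin N → ℝ) (U : ON N) :
    pressure β (fun i => (∑ k, z k i) / m) U ≤ (∑ k, pressure β (z k) U) / m := by
  have hm' : (0 : ℝ) < m := Nat.cast_pos.2 hm
  simp only [pressure_eq]
  rw [← sum_div, sum_sub_distrib, sum_const, card_univ, Fintype.card_fin, nsmul_eq_mul,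
    div_right_comm, sub_div (∑ k, Real.log (part β (z k) U)), mul_div_cancel_left₀ _ hm'.ne']
  exact div_le_div_of_nonneg_right (sub_le_sub_right (log_part_avg hm β z U) _) (Nat.cast_nonneg N)

lemma continuous_pressure (β : ℝ) (l : Fin N → ℝ) :
    Continuous fun U : ON N => pressure β l U := by
  simp only [pressure_eq]
  refine ((Continuous.log ?_ fun U => (part_pos β l U).ne').sub continuous_const).div_const _
  refine continuous_finsetSum _ fun s _ => Real.continuous_exp.comp (continuous_const.mul ?_)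
  simp only [quad_eq]
  have hU : Continuous fun U : ON N => U.1 := continuous_subtype_val
  fun_prop

instance compactSpaceON (N : ℕ) : CompactSpace (ON N) := by
  let K : Set (Matrix (Fin N) (Fin N) ℝ) :=
    Set.univ.pi fun _ => Set.univ.pi fun _ => Set.Icc (-1) 1
  have hK : IsCompact K :=
    isCompact_univ_pi fun _ => isCompact_univ_pi fun _ => isCompact_Icc
  have hclosed : IsClosed {A : Matrix (Fin N) (Fin N) ℝ | A ∈ Matrix.unitaryGroup (Fin N) ℝ} := by
    simp only [Matrix.mem_unitaryGroup_iff]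
    exact isClosed_eq (by fun_prop) continuous_const
  refine isCompact_iff_compactSpace.1 (hK.of_isClosed_subset hclosed fun A hA => ?_)
  intro i _ j _
  have h := congrFun (congrFun (Matrix.mem_unitaryGroup_iff.1 hA) i) i
  simp only [Matrix.mul_apply, star_eq_conjTranspose, conjTranspose_apply, star_trivial,
    Matrix.one_apply_eq] at h
  have h2 : A i j * A i j ≤ 1 :=
    h ▸ single_le_sum (f := fun k => A i k * A i k) (fun k _ => mul_self_nonneg _) (mem_univ j)
  constructor <;> nlinarith

lemma integrable_pressure (β : ℝ) (l : Fin N → ℝ) (ν : Measure (ON N)) [IsFiniteMeasure ν] :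
    Integrable (fun U => pressure β l U) ν :=
  (continuous_pressure β l).integrable_of_hasCompactSupport (HasCompactSupport.of_compactSpace _)

/-- The permutation matrix of `π`, as an orthogonal matrix. -/
noncomputable def permON (π : Equiv.Perm (Fin N)) : ON N :=
  ⟨π.permMatrix ℝ, by
    rw [Matrix.mem_unitaryGroup_iff, star_eq_conjTranspose, conjTranspose_permMatrix,
      ← permMatrix_mul, inv_mul_cancel, permMatrix_one]⟩

lemma pressure_perm (β : ℝ) (l : Fin N → ℝ) (π : Equiv.Perm (Fin N)) (U : ON N) :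
    pressure β (l ∘ π) U = pressure β l (permON π⁻¹ * U) := by
  have h : ∀ s, quad (l ∘ π) U s = quad l (permON π⁻¹ * U) s := by
    intro s
    rw [quad_eq, quad_eq]
    have hv : ((permON π⁻¹ * U).1) *ᵥ spin s = (U.1 *ᵥ spin s) ∘ (π⁻¹ : Equiv.Perm (Fin N)) := by
      show ((permON π⁻¹).1 * U.1) *ᵥ spin s = _
      rw [← mulVec_mulVec]
      exact permMatrix_mulVec _
    rw [hv, ← Equiv.sum_comp π (fun i => l i * (((U.1 *ᵥ spin s) ∘ (π⁻¹ : Equiv.Perm (Fin N))) i) ^ 2)]
    simp
  simp only [pressure, h]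

/-- Any function of the pressure has the same mean for a permuted spectrum. -/
lemma integral_perm (β : ℝ) (l : Fin N → ℝ) (π : Equiv.Perm (Fin N)) (ν : Measure (ON N))
    (hν : ∀ g : ON N, ν.map (fun U => g * U) = ν) (f : ℝ → ℝ) (hf : Continuous f) :
    ∫ U, f (pressure β (l ∘ π) U) ∂ν = ∫ U, f (pressure β l U) ∂ν := by
  simp only [pressure_perm]
  conv_rhs => rw [← hν (permON π⁻¹)]
  exact (integral_map (φ := fun U : ON N => permON π⁻¹ * U)
    (continuous_const.mul continuous_id).measurable.aemeasurable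
    (hf.comp (continuous_pressure β l)).aestronglyMeasurable).symm

end Vale.Agent.P166
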