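import Vale.Agent.P166.Raise

/-!
Spectra with the same limiting distribution and top edge give asymptotically the same law of the
pressure.
-/

open MeasureTheory Finset Filter
open scoped BigOperators Topology

namespace Vale.Agent.P166

/-- A continuous cut-off: `1` up to `t`, `0` from `t + h` on. -/
noncomputable def cutLow (t h z : ℝ) : ℝ := max 0 (min 1 (1 - (z - t) / h))

/-- A continuous cut-off: `0` up to `t`, `1` from `t + h` on. -/
noncomputable def cutHigh (t h z : ℝ) : ℝ := max 0 (min 1 ((z - t) / h))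

lemma cutLow_nonneg (t h z : ℝ) : 0 ≤ cutLow t h z := le_max_left _ _
lemma cutLow_le_one (t h z : ℝ) : cutLow t h z ≤ 1 := max_le zero_le_one (min_le_left _ _)
lemma cutHigh_nonneg (t h z : ℝ) : 0 ≤ cutHigh t h z := le_max_left _ _
lemma cutHigh_le_one (t h z : ℝ) : cutHigh t h z ≤ 1 := max_le zero_le_one (min_le_left _ _)
lemma continuous_cutLow (t h : ℝ) : Continuous (cutLow t h) := by unfold cutLow; fun_prop
lemma continuous_cutHigh (t h : ℝ) : Continuous (cutHigh t h) := by unfold cutHigh; fun_prop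

lemma cutLow_eq_one {t h z : ℝ} (hh : 0 < h) (hz : z ≤ t) : cutLow t h z = 1 := by
  have : (z - t) / h ≤ 0 := div_nonpos_of_nonpos_of_nonneg (by linarith) hh.le
  unfold cutLow
  rw [min_eq_left (by linarith), max_eq_right zero_le_one]

lemma cutLow_eq_zero {t h z : ℝ} (hh : 0 < h) (hz : t + h ≤ z) : cutLow t h z = 0 := by
  have : 1 ≤ (z - t) / h := (one_le_div hh).2 (by linarith)
  unfold cutLow
  rw [max_eq_left (le_trans (min_le_right _ _) (by linarith))]

lemma cutHigh_eq_zero {t h z : ℝ} (hh : 0 < h) (hz : z ≤ t) : cutHigh t h z = 0 := by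
  have : (z - t) / h ≤ 0 := div_nonpos_of_nonpos_of_nonneg (by linarith) hh.le
  unfold cutHigh
  rw [max_eq_left (le_trans (min_le_right _ _) this)]

variable {N : ℕ}

lemma card_gap_le {x y : Fin N → ℝ} (hx : Monotone x) (hy : Monotone y) {t h : ℝ} (hh : 0 < h) :
    ((univ.filter fun i => y i ≤ t ∧ t + h < x i).card : ℝ) ≤
      |(∑ i, cutLow t h (y i)) - ∑ i, cutLow t h (x i)| := by
  rcases (univ.filter fun i => y i ≤ t ∧ t + h < x i).eq_empty_or_nonempty with h0 | ⟨i₀, hi₀⟩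
  · rw [h0]; simp
  rw [mem_filter] at hi₀
  have hsub : (univ.filter fun i => x i ≤ t + h) ⊆ univ.filter fun i => y i ≤ t := by
    intro j hj
    rw [mem_filter] at hj ⊢
    refine ⟨mem_univ j, ?_⟩
    have : j ≤ i₀ := le_of_not_gt fun hlt => by
      linarith [hx hlt.le, hi₀.2.2, hj.2]
    exact (hy this).trans hi₀.2.1
  have he : (univ.filter fun i => y i ≤ t ∧ t + h < x i) =
      (univ.filter fun i => y i ≤ t) \ (univ.filter fun i => x i ≤ t + h) := by
    ext j
    simp [not_le]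
  rw [he, card_sdiff_of_subset hsub, Nat.cast_sub (card_le_card hsub)]
  refine le_trans ?_ (le_abs_self _)
  refine sub_le_sub ?_ ?_
  · rw [card_eq_sum_ones, Nat.cast_sum, sum_filter]
    refine sum_le_sum fun i _ => ?_
    split_ifs with hi
    · simp [cutLow_eq_one hh hi]
    · exact cutLow_nonneg _ _ _
  · rw [card_eq_sum_ones, Nat.cast_sum, sum_filter]
    refine sum_le_sum fun i _ => ?_
    split_ifs with hi
    · simpa using cutLow_le_one t h (x i)
    · simp [cutLow_eq_zero hh (not_le.1 hi).le]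

lemma card_exceed_le {x y : Fin N → ℝ} (hx : Monotone x) (hy : Monotone y) {a b η : ℝ}
    (hη : 0 < η) (ha : ∀ i, a ≤ y i) (hb : ∀ i, y i ≤ b) :
    ((univ.filter fun i => y i + η < x i).card : ℝ) ≤
      ∑ j ∈ range (⌈(b - a) / (η / 2)⌉₊ + 1),
        |(∑ i, cutLow (a + j * (η / 2)) (η / 2) (y i)) -
          ∑ i, cutLow (a + j * (η / 2)) (η / 2) (x i)| := by
  have h2 : 0 < η / 2 := half_pos hη
  refine le_trans ?_ (sum_le_sum fun j _ => card_gap_le hx hy h2)
  rw [← Nat.cast_sum, Nat.cast_le]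
  refine (card_le_card ?_).trans card_biUnion_le
  intro i hi
  rw [mem_filter] at hi
  rw [mem_biUnion]
  have h0 : 0 ≤ (y i - a) / (η / 2) := div_nonneg (by linarith [ha i]) h2.le
  refine ⟨⌈(y i - a) / (η / 2)⌉₊, mem_range.2 (Nat.lt_succ_of_le (Nat.ceil_mono
    (div_le_div_of_nonneg_right (by linarith [hb i]) h2.le))), mem_filter.2 ⟨mem_univ i, ?_, ?_⟩⟩
  · have := Nat.le_ceil ((y i - a) / (η / 2))
    rw [div_le_iff₀ h2] at this
    linarith
  · have h := Nat.ceil_lt_add_one h0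
    rw [← sub_lt_iff_lt_add, lt_div_iff₀ h2] at h
    linarith [hi.2]

lemma cutHigh_sum_le {x : Fin N → ℝ} {b η : ℝ} (hη : 0 < η) :
    ∑ i, cutHigh (b - η) η (x i) ≤ ((univ.filter fun i => b - η ≤ x i).card : ℝ) := by
  rw [card_eq_sum_ones, Nat.cast_sum, sum_filter]
  refine sum_le_sum fun i _ => ?_
  split_ifs with hi
  · simpa using cutHigh_le_one (b - η) η (x i)
  · simp [cutHigh_eq_zero hη (not_le.1 hi).le]

lemma integrable_comp_pressure {g : ℝ → ℝ} (hg : Continuous g) (β : ℝ) (l : Fin N → ℝ)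
    (ν : Measure (ON N)) [IsFiniteMeasure ν] : Integrable (fun U => g (pressure β l U)) ν :=
  (hg.comp (continuous_pressure β l)).integrable_of_hasCompactSupport
    (HasCompactSupport.of_compactSpace _)

/-- Two sorted spectra, close in distribution, give close pressures in mean. -/
lemma sorted_close {β : ℝ} (hβ : 0 ≤ β) (hN : 0 < N) (ν : Measure (ON N))
    [IsProbabilityMeasure ν] (hν : ∀ g : ON N, ν.map (fun U => g * U) = ν)
    {x y : Fin N → ℝ} {a M η r : ℝ} (hη : 0 ≤ η)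
    (hax : ∀ i, a ≤ x i) (hay : ∀ i, a ≤ y i) (hxM : ∀ i, x i ≤ M) (hyM : ∀ i, y i ≤ M)
    (hBx : (univ.filter fun i => M - 2 * η ≤ x i).Nonempty)
    (hBy : (univ.filter fun i => M - 2 * η ≤ y i).Nonempty)
    (hrx : ((univ.filter fun i => x i + η < y i).card : ℝ) /
      (univ.filter fun i => M - 2 * η ≤ x i).card ≤ r)
    (hry : ((univ.filter fun i => y i + η < x i).card : ℝ) /
      (univ.filter fun i => M - 2 * η ≤ y i).card ≤ r) :
    ∫ U, |pressure β x U - pressure β y U| ∂ν ≤ β / 2 * (5 * η + 2 * r * (M - a)) := by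
  obtain ⟨A, hA⟩ : ∃ A, A = univ.filter fun i => y i + η < x i := ⟨_, rfl⟩
  obtain ⟨A', hA'⟩ : ∃ A', A' = univ.filter fun i => x i + η < y i := ⟨_, rfl⟩
  have key : ∀ {x y : Fin N → ℝ}, (∀ i, x i ≤ M) → ∀ U,
      pressure β x U ≤ pressure β (raise y (univ.filter fun i => y i + η < x i) M) U +
        β / 2 * η := by
    intro x y hxM U
    rw [← pressure_shift hN β _ η U]
    refine pressure_mono hβ (fun i => ?_) U
    by_cases hi : y i + η < x i
    · simp only [raise, mem_filter, mem_univ, true_and, hi, if_true]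
      linarith [hxM i]
    · simp only [raise, mem_filter, mem_univ, true_and, hi, if_false]
      linarith [not_lt.1 hi]
  have hpt : ∀ U, |pressure β x U - pressure β y U| ≤
      (pressure β (raise y A M) U - pressure β y U) +
        (pressure β (raise x A' M) U - pressure β x U) + β / 2 * η := by
    intro U
    have h1 := key (y := y) hxM U
    have h2 := key (y := x) hyM U
    rw [← hA] at h1
    rw [← hA'] at h2
    have h3 := pressure_mono hβ (le_raise (A := A) hyM) U
    have h4 := pressure_mono hβ (le_raise (A := A') hxM) U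
    rw [abs_le]
    constructor <;> linarith
  have hMa : 0 ≤ M - a := by linarith [hax ⟨0, hN⟩, hxM ⟨0, hN⟩]
  have hi := fun z : Fin N → ℝ => integrable_pressure β z ν
  have hβ2 : 0 ≤ β / 2 := by linarith
  have by1 := raise_mean_le hβ hN ν hν (η := 2 * η) (by linarith) hay hyM A _
    (fun i hi => (mem_filter.1 hi).2) hBy
  have bx1 := raise_mean_le hβ hN ν hν (η := 2 * η) (by linarith) hax hxM A' _
    (fun i hi => (mem_filter.1 hi).2) hBx
  rw [← hA] at hry
  rw [← hA'] at hrx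
  have ry := mul_le_mul_of_nonneg_left (mul_le_mul_of_nonneg_right hry hMa) hβ2
  have rx := mul_le_mul_of_nonneg_left (mul_le_mul_of_nonneg_right hrx hMa) hβ2
  calc ∫ U, |pressure β x U - pressure β y U| ∂ν
      ≤ ∫ U, ((pressure β (raise y A M) U - pressure β y U) +
          (pressure β (raise x A' M) U - pressure β x U) + β / 2 * η) ∂ν :=
        integral_mono ((hi x).sub (hi y)).abs
          ((((hi _).sub (hi y)).add ((hi _).sub (hi x))).add (integrable_const _)) hpt
    _ = ((∫ U, pressure β (raise y A M) U ∂ν) - ∫ U, pressure β y U ∂ν) +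
          ((∫ U, pressure β (raise x A' M) U ∂ν) - ∫ U, pressure β x U ∂ν) + β / 2 * η := by
        rw [integral_add (f := fun U => (pressure β (raise y A M) U - pressure β y U) +
            (pressure β (raise x A' M) U - pressure β x U)) (g := fun _ => β / 2 * η)
            (((hi _).sub (hi y)).add ((hi _).sub (hi x))) (integrable_const _),
          integral_add (f := fun U => pressure β (raise y A M) U - pressure β y U)
            (g := fun U => pressure β (raise x A' M) U - pressure β x U)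
            ((hi _).sub (hi y)) ((hi _).sub (hi x)), integral_sub (hi _) (hi y),
          integral_sub (hi _) (hi x), integral_const]
        simp
    _ ≤ _ := by linarith

/-- Asymptotic universality. -/
theorem universality {β : ℝ} (hβ : 0 ≤ β) (μ : Measure ℝ) [IsProbabilityMeasure μ] (a b : ℝ)
    (l l' : (N : ℕ) → Fin N → ℝ)
    (hl : ∀ f : ℝ → ℝ, Continuous f → (∃ C, ∀ z, |f z| ≤ C) →
      Tendsto (fun N : ℕ => (∑ i, f (l N i)) / (N : ℝ)) atTop (𝓝 (∫ z, f z ∂μ)))
    (hl' : ∀ f : ℝ → ℝ, Continuous f → (∃ C, ∀ z, |f z| ≤ C) →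
      Tendsto (fun N : ℕ => (∑ i, f (l' N i)) / (N : ℝ)) atTop (𝓝 (∫ z, f z ∂μ)))
    (hb : ∀ η > (0 : ℝ), ∀ᶠ N in atTop, ∀ i, a - η ≤ l N i ∧ l N i ≤ b + η)
    (hb' : ∀ η > (0 : ℝ), ∀ᶠ N in atTop, ∀ i, a - η ≤ l' N i ∧ l' N i ≤ b + η)
    (hedge : ∀ η > (0 : ℝ), 0 < μ (Set.Ioi (b - η)))
    (ν : (N : ℕ) → Measure (ON N)) (hprob : ∀ N, IsProbabilityMeasure (ν N))
    (hinv : ∀ N, ∀ g : ON N, (ν N).map (fun U => g * U) = ν N) :
    ∀ ε > (0 : ℝ), ∀ᶠ N in atTop, ∀ g : ℝ → ℝ, LipschitzWith 1 g →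
      |(∫ U, g (pressure β (l N) U) ∂ν N) - ∫ U, g (pressure β (l' N) U) ∂ν N| ≤ ε := by
  intro ε hε
  obtain ⟨η, hη, hη1, hηε⟩ : ∃ η > (0 : ℝ), η ≤ 1 ∧ β / 2 * (5 * η) ≤ ε / 2 := by
    refine ⟨min 1 (ε / (5 * β + 1)), lt_min one_pos (by positivity), min_le_left _ _, ?_⟩
    have h := mul_le_mul_of_nonneg_left (min_le_right 1 (ε / (5 * β + 1))) (by positivity : 0 ≤ 5 * β)
    have : 5 * β * (ε / (5 * β + 1)) ≤ ε := by
      rw [mul_div_assoc', div_le_iff₀ (by positivity)]
      nlinarith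
    linarith
  have hbd : ∀ t h : ℝ, ∃ C, ∀ z, |cutLow t h z| ≤ C := fun t h =>
    ⟨1, fun z => by rw [abs_of_nonneg (cutLow_nonneg _ _ _)]; exact cutLow_le_one _ _ _⟩
  have hbdh : ∃ C, ∀ z, |cutHigh (b - η) η z| ≤ C :=
    ⟨1, fun z => by rw [abs_of_nonneg (cutHigh_nonneg _ _ _)]; exact cutHigh_le_one _ _ _⟩
  obtain ⟨c, hcdef⟩ : ∃ c, c = ∫ z, cutHigh (b - η) η z ∂μ := ⟨_, rfl⟩
  have hc : 0 < c := by
    rw [hcdef]
    refine (integral_pos_iff_support_of_nonneg (fun z => cutHigh_nonneg _ _ _) ?_).2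
      (lt_of_lt_of_le (hedge η hη) (measure_mono fun z hz => ?_))
    · exact Integrable.of_bound (continuous_cutHigh _ _).aestronglyMeasurable 1
        (Eventually.of_forall fun z => by
          rw [Real.norm_eq_abs, abs_of_nonneg (cutHigh_nonneg _ _ _)]
          exact cutHigh_le_one _ _ _)
    · have hz' : 0 < (z - (b - η)) / η := div_pos (by linarith [Set.mem_Ioi.1 hz]) hη
      rw [Function.mem_support]
      unfold cutHigh
      exact (lt_max_of_lt_right (lt_min one_pos hz')).ne'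
  obtain ⟨K, hK⟩ : ∃ K, K = ⌈((b + η) - (a - η)) / (η / 2)⌉₊ + 1 := ⟨_, rfl⟩
  obtain ⟨w, hw⟩ : ∃ w, w = max ((b + η) - (a - η)) 0 := ⟨_, rfl⟩
  have hw0 : 0 ≤ w := hw ▸ le_max_right _ _
  obtain ⟨r, hr, hrε⟩ : ∃ r > (0 : ℝ), β / 2 * (2 * r * w) ≤ ε / 2 := by
    refine ⟨ε / (2 * β * w + 1), by positivity, ?_⟩
    have : β * w * (ε / (2 * β * w + 1)) ≤ ε / 2 := by
      rw [mul_div_assoc', div_le_iff₀ (by positivity)]
      nlinarith [mul_nonneg hβ hw0]
    linarith
  have hD : Tendsto (fun N : ℕ => ∑ j ∈ range K,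
      |(∑ i, cutLow (a - η + j * (η / 2)) (η / 2) (l N i)) / (N : ℝ) -
        (∑ i, cutLow (a - η + j * (η / 2)) (η / 2) (l' N i)) / (N : ℝ)|) atTop (𝓝 0) := by
    have h := tendsto_finsetSum (range K) fun j _ =>
      ((hl _ (continuous_cutLow (a - η + (j : ℕ) * (η / 2)) (η / 2)) (hbd _ _)).sub
        (hl' _ (continuous_cutLow (a - η + (j : ℕ) * (η / 2)) (η / 2)) (hbd _ _))).abs
    simpa using h
  have hH := hl _ (continuous_cutHigh (b - η) η) hbdh
  have hH' := hl' _ (continuous_cutHigh (b - η) η) hbdh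
  rw [← hcdef] at hH hH'
  filter_upwards [hb η hη, hb' η hη, hD.eventually (ge_mem_nhds (show (0 : ℝ) < r * (c / 2) by positivity)),
    hH.eventually (le_mem_nhds (show c / 2 < c by linarith)),
    hH'.eventually (le_mem_nhds (show c / 2 < c by linarith)),
    eventually_gt_atTop 0] with N hbN hbN' hDN hHN hHN' hN g hg
  have : IsProbabilityMeasure (ν N) := hprob N
  have hNr : (0 : ℝ) < N := Nat.cast_pos.2 hN
  obtain ⟨x, hxd⟩ : ∃ x, x = l N ∘ Tuple.sort (l N) := ⟨_, rfl⟩
  obtain ⟨y, hyd⟩ : ∃ y, y = l' N ∘ Tuple.sort (l' N) := ⟨_, rfl⟩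
  have hxm : Monotone x := hxd ▸ Tuple.monotone_sort _
  have hym : Monotone y := hyd ▸ Tuple.monotone_sort _
  have sx : ∀ f : ℝ → ℝ, ∑ i, f (x i) = ∑ i, f (l N i) := fun f =>
    hxd ▸ Equiv.sum_comp (Tuple.sort (l N)) (fun i => f (l N i))
  have sy : ∀ f : ℝ → ℝ, ∑ i, f (y i) = ∑ i, f (l' N i) := fun f =>
    hyd ▸ Equiv.sum_comp (Tuple.sort (l' N)) (fun i => f (l' N i))
  have hxb : ∀ i, a - η ≤ x i ∧ x i ≤ b + η := fun i => hxd ▸ hbN _
  have hyb : ∀ i, a - η ≤ y i ∧ y i ≤ b + η := fun i => hyd ▸ hbN' _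
  have hcard : ∀ z : Fin N → ℝ, c / 2 ≤ (∑ i, cutHigh (b - η) η (z i)) / (N : ℝ) →
      (univ.filter fun i => b + η - 2 * η ≤ z i).Nonempty ∧
        c / 2 * N ≤ ((univ.filter fun i => b + η - 2 * η ≤ z i).card : ℝ) := by
    intro z hz
    rw [le_div_iff₀ hNr] at hz
    have h := hz.trans (cutHigh_sum_le hη)
    rw [show b + η - 2 * η = b - η by ring]
    refine ⟨card_pos.1 ?_, h⟩
    exact_mod_cast lt_of_lt_of_le (by positivity : (0 : ℝ) < c / 2 * N) h
  obtain ⟨hBx, hBxc⟩ := hcard x (by rw [sx]; exact hHN)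
  obtain ⟨hBy, hByc⟩ := hcard y (by rw [sy]; exact hHN')
  have hsum : ∑ j ∈ range K, |(∑ i, cutLow (a - η + j * (η / 2)) (η / 2) (x i)) -
      ∑ i, cutLow (a - η + j * (η / 2)) (η / 2) (y i)| ≤ r * (c / 2) * N := by
    simp only [sx, sy]
    simp only [← sub_div, abs_div, abs_of_pos hNr, ← sum_div] at hDN
    exact (div_le_iff₀ hNr).1 hDN
  have hA := (card_exceed_le hxm hym hη (fun i => (hyb i).1) (fun i => (hyb i).2)).trans
    (le_of_eq_of_le (by rw [hK]; exact sum_congr rfl fun j _ => abs_sub_comm _ _) hsum)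
  have hA' := (card_exceed_le hym hxm hη (fun i => (hxb i).1) (fun i => (hxb i).2)).trans
    (le_of_eq_of_le (by rw [hK]) hsum)
  have hclose := sorted_close (r := r) hβ hN (ν N) (hinv N) hη.le (fun i => (hxb i).1)
    (fun i => (hyb i).1) (fun i => (hxb i).2) (fun i => (hyb i).2) hBx hBy
    ((div_le_iff₀ (Nat.cast_pos.2 (card_pos.2 hBx))).2 (hA'.trans
      ((mul_assoc r (c / 2) N).le.trans (mul_le_mul_of_nonneg_left hBxc hr.le))))
    ((div_le_iff₀ (Nat.cast_pos.2 (card_pos.2 hBy))).2 (hA.trans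
      ((mul_assoc r (c / 2) N).le.trans (mul_le_mul_of_nonneg_left hByc hr.le))))
  have hgx : ∫ U, g (pressure β (l N) U) ∂ν N = ∫ U, g (pressure β x U) ∂ν N :=
    hxd ▸ (integral_perm β (l N) _ (ν N) (hinv N) g hg.continuous).symm
  have hgy : ∫ U, g (pressure β (l' N) U) ∂ν N = ∫ U, g (pressure β y U) ∂ν N :=
    hyd ▸ (integral_perm β (l' N) _ (ν N) (hinv N) g hg.continuous).symm
  rw [hgx, hgy, ← integral_sub (integrable_comp_pressure hg.continuous β x _)
    (integrable_comp_pressure hg.continuous β y _)]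
  refine le_trans (abs_integral_le_integral_abs) (le_trans (integral_mono
    ((integrable_comp_pressure hg.continuous β x _).sub
      (integrable_comp_pressure hg.continuous β y _)).abs
    ((integrable_pressure β x _).sub (integrable_pressure β y _)).abs fun U => ?_) ?_)
  · have h := hg.dist_le_mul (pressure β x U) (pressure β y U)
    simpa [Real.dist_eq] using h
  · refine hclose.trans ?_
    have h1 : (b + η) - (a - η) ≤ w := hw ▸ le_max_left _ _
    have h2 := mul_le_mul_of_nonneg_left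
      (mul_le_mul_of_nonneg_left h1 (by positivity : (0 : ℝ) ≤ 2 * r)) (by linarith : (0 : ℝ) ≤ β / 2)
    linarith

end Vale.Agent.P166
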