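import Vale.Agent.P166.Basic

/-!
Raising a few entries of the spectrum to its top costs little mean pressure.
-/

open MeasureTheory Finset
open scoped BigOperators

namespace Vale.Agent.P166

variable {N : ℕ}

/-- Replace the entries in `A` by `M`. -/
def raise (x : Fin N → ℝ) (A : Finset (Fin N)) (M : ℝ) : Fin N → ℝ :=
  fun i => if i ∈ A then M else x i

lemma le_raise {x : Fin N → ℝ} {A : Finset (Fin N)} {M : ℝ} (h : ∀ i, x i ≤ M) :
    x ≤ raise x A M := by
  intro i
  unfold raise
  split_ifs with hi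
  · exact h i
  · exact le_rfl

lemma exists_perms (x : Fin N → ℝ) (S : Finset (Fin N)) (hS : S.Nonempty) :
    ∃ π : Fin S.card → Equiv.Perm (Fin N),
      (∀ i ∈ S, ∑ k, x (π k i) = ∑ j ∈ S, x j) ∧ (∀ i ∉ S, ∀ k, π k i = i) := by
  have : NeZero S.card := ⟨(Finset.card_pos.2 hS).ne'⟩
  refine ⟨fun k => Equiv.Perm.ofSubtype (S.equivFin.symm.permCongr (Equiv.addRight k)), ?_, ?_⟩
  · intro i hi
    calc ∑ k, x (Equiv.Perm.ofSubtype (S.equivFin.symm.permCongr (Equiv.addRight k)) i)
        = ∑ k, x (S.equivFin.symm (S.equivFin ⟨i, hi⟩ + k)) := by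
          refine sum_congr rfl fun k _ => ?_
          rw [Equiv.Perm.ofSubtype_apply_of_mem _ hi, Equiv.permCongr_apply]
          simp
      _ = ∑ k, x (S.equivFin.symm k) :=
          Equiv.sum_comp (Equiv.addLeft (S.equivFin ⟨i, hi⟩)) (fun k => x (S.equivFin.symm k))
      _ = ∑ j : S, x j := Equiv.sum_comp S.equivFin.symm (fun j : S => x j)
      _ = ∑ j ∈ S, x j := sum_coe_sort S x
  · intro i hi k
    exact Equiv.Perm.ofSubtype_apply_of_not_mem _ hi

lemma raise_mean_le {β : ℝ} (hβ : 0 ≤ β) (hN : 0 < N) (ν : Measure (ON N))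
    [IsProbabilityMeasure ν] (hν : ∀ g : ON N, ν.map (fun U => g * U) = ν)
    {x : Fin N → ℝ} {a M η : ℝ} (hη : 0 ≤ η) (hax : ∀ i, a ≤ x i) (hxM : ∀ i, x i ≤ M)
    (A B : Finset (Fin N)) (hB : ∀ i ∈ B, M - η ≤ x i) (hBne : B.Nonempty) :
    ∫ U, pressure β (raise x A M) U ∂ν ≤
      (∫ U, pressure β x U ∂ν) + β / 2 * (η + (A.card : ℝ) / B.card * (M - a)) := by
  set c := η + (A.card : ℝ) / B.card * (M - a) with hc
  obtain ⟨S, hS⟩ : ∃ S, S = A ∪ B := ⟨_, rfl⟩
  have hBS : B ⊆ S := hS ▸ subset_union_right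
  obtain ⟨π, hπS, hπout⟩ := exists_perms x S (hBne.mono hBS)
  have hm0 : 0 < S.card := card_pos.2 (hBne.mono hBS)
  have hmr : (0 : ℝ) < S.card := Nat.cast_pos.2 hm0
  have hbr : (0 : ℝ) < B.card := Nat.cast_pos.2 (card_pos.2 hBne)
  have hMa : 0 ≤ M - a := by linarith [hax ⟨0, hN⟩, hxM ⟨0, hN⟩]
  have hc0 : 0 ≤ c := by positivity
  have hdom : raise x A M ≤ fun i => (∑ k, (x ∘ π k) i) / S.card + c := by
    intro i
    simp only [Function.comp_apply]
    by_cases hi : i ∈ S
    · rw [hπS i hi]
      have h1 : raise x A M i ≤ M := by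
        unfold raise
        split_ifs
        · exact le_rfl
        · exact hxM i
      have h2 : (B.card : ℝ) * (M - η) + ((S.card : ℝ) - B.card) * a ≤ ∑ j ∈ S, x j := by
        have hd : ((S \ B).card : ℝ) = (S.card : ℝ) - B.card := by
          rw [card_sdiff_of_subset hBS, Nat.cast_sub (card_le_card hBS)]
        rw [← sum_sdiff hBS]
        have e1 : ((S \ B).card : ℝ) * a ≤ ∑ j ∈ S \ B, x j := by
          simpa using sum_le_sum (s := S \ B) fun j _ => hax j
        have e2 : (B.card : ℝ) * (M - η) ≤ ∑ j ∈ B, x j := by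
          calc (B.card : ℝ) * (M - η) = ∑ _j ∈ B, (M - η) := by rw [sum_const, nsmul_eq_mul]
            _ ≤ _ := sum_le_sum fun j hj => hB j hj
        rw [hd] at e1
        linarith
      have hmA : (S.card : ℝ) - B.card ≤ A.card := by
        have : S.card ≤ A.card + B.card := hS ▸ card_union_le A B
        have : (S.card : ℝ) ≤ A.card + B.card := by exact_mod_cast this
        linarith
      have hBm : (B.card : ℝ) ≤ S.card := by exact_mod_cast card_le_card hBS
      have h3 : M - c ≤ (∑ j ∈ S, x j) / S.card := by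
        rw [le_div_iff₀ hmr]
        have e : (A.card : ℝ) ≤ (A.card : ℝ) / B.card * S.card := by
          rw [div_mul_eq_mul_div, le_div_iff₀ hbr]
          exact mul_le_mul_of_nonneg_left hBm (Nat.cast_nonneg _)
        rw [hc]
        nlinarith [mul_le_mul_of_nonneg_right (hmA.trans e) hMa,
          mul_le_mul_of_nonneg_right hBm hη]
      linarith
    · have hA : i ∉ A := fun h => hi (hS ▸ mem_union_left _ h)
      simp only [hπout i hi, sum_const, card_univ, Fintype.card_fin, nsmul_eq_mul, raise, hA,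
        if_false]
      rw [mul_div_cancel_left₀ _ hmr.ne']
      linarith
  calc ∫ U, pressure β (raise x A M) U ∂ν
      ≤ ∫ U, ((∑ k, pressure β (x ∘ π k) U) / S.card + β / 2 * c) ∂ν := by
        refine integral_mono (integrable_pressure _ _ _)
          (((integrable_finsetSum _ fun k _ => integrable_pressure _ _ _).div_const _).add
            (integrable_const _)) fun U => ?_
        refine (pressure_mono hβ hdom U).trans ?_
        rw [pressure_shift hN β (fun i => (∑ k, (x ∘ π k) i) / S.card) c U]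
        exact add_le_add (pressure_avg hm0 β (fun k => x ∘ π k) U) le_rfl
    _ = (∫ U, pressure β x U ∂ν) + β / 2 * c := by
        rw [integral_add ((integrable_finsetSum _ fun k _ => integrable_pressure _ _ _).div_const _)
          (integrable_const _), integral_div, integral_finsetSum _ fun k _ => integrable_pressure _ _ _,
          integral_const]
        have h : ∀ k, ∫ U, pressure β (x ∘ π k) U ∂ν = ∫ U, pressure β x U ∂ν := fun k =>
          integral_perm β x (π k) ν hν id continuous_id
        simp [h, hmr.ne']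

end Vale.Agent.P166
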